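import Vale.Agent.P163.Sphere

/-!
# P163: nearest-neighbour couplings on a finite subset of the square lattice
-/

namespace Vale.Agent.P163

/-- The free-boundary nearest-neighbour coupling on a finite `Λ ⊂ ℤ²`; each bond is counted once,
from its left (resp. lower) endpoint. -/
noncomputable def latticeCoupling (Λ : Finset (ℤ × ℤ)) (β : ℝ) (a b : {v // v ∈ Λ}) : ℝ :=
  if (b : ℤ × ℤ) = (a : ℤ × ℤ) + (1, 0) ∨ (b : ℤ × ℤ) = (a : ℤ × ℤ) + (0, 1) then β else 0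

theorem latticeCoupling_nonneg (Λ : Finset (ℤ × ℤ)) {β : ℝ} (hβ : 0 ≤ β) (a b : {v // v ∈ Λ}) :
    0 ≤ latticeCoupling Λ β a b := by
  unfold latticeCoupling
  split_ifs
  · exact hβ
  · exact le_refl _

/-- Euclidean distance in `ℤ²`. -/
noncomputable def latticeDist (u v : ℤ × ℤ) : ℝ :=
  Real.sqrt (((u.1 - v.1 : ℤ) : ℝ) ^ 2 + ((u.2 - v.2 : ℤ) : ℝ) ^ 2)

end Vale.Agent.P163
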