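import Mathlib

/-!
# P163: the XY model and Ginibre's inequality
-/

namespace Vale.Agent.P163

open MeasureTheory Finset

variable {V : Type} [Fintype V]

/-- Cosine on the circle `ℝ/ℤ`. -/
noncomputable def cosd (t : UnitAddCircle) : ℝ := (AddCircle.toCircle t : ℂ).re

/-- Sine on the circle `ℝ/ℤ`. -/
noncomputable def sind (t : UnitAddCircle) : ℝ := (AddCircle.toCircle t : ℂ).im

/-- The XY Boltzmann weight. -/
noncomputable def xyWeight (J : V → V → ℝ) (θ : V → UnitAddCircle) : ℝ :=
  Real.exp (∑ a, ∑ b, J a b * cosd (θ a - θ b))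

/-- The XY two-point function: angles are uniform and independent before weighting. -/
noncomputable def xyCorr (J : V → V → ℝ) (x y : V) : ℝ :=
  (∫ θ, cosd (θ x - θ y) * xyWeight J θ ∂(Measure.pi fun _ : V => (volume : Measure UnitAddCircle))) /
    ∫ θ, xyWeight J θ ∂(Measure.pi fun _ : V => (volume : Measure UnitAddCircle))

theorem cosd_add (s t : UnitAddCircle) : cosd (s + t) = cosd s * cosd t - sind s * sind t := by
  simp [cosd, sind, AddCircle.toCircle_add, Circle.coe_mul, Complex.mul_re]

theorem cosd_neg (t : UnitAddCircle) : cosd (-t) = cosd t := by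
  simp [cosd, AddCircle.toCircle_neg, Circle.coe_inv_eq_conj]

theorem sind_neg (t : UnitAddCircle) : sind (-t) = -sind t := by
  simp [sind, AddCircle.toCircle_neg, Circle.coe_inv_eq_conj]

theorem continuous_cosd : Continuous cosd :=
  Complex.continuous_re.comp (continuous_subtype_val.comp AddCircle.continuous_toCircle)

theorem continuous_sind : Continuous sind :=
  Complex.continuous_im.comp (continuous_subtype_val.comp AddCircle.continuous_toCircle)

theorem cosd_zero : cosd 0 = 1 := by simp [cosd, AddCircle.toCircle_zero]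

/-- Half a turn. -/
noncomputable def half : UnitAddCircle := ((1 / 2 : ℝ) : UnitAddCircle)

theorem cosd_add_half (t : UnitAddCircle) : cosd (t + half) = -cosd t := by
  have h : (AddCircle.toCircle half : ℂ) = -1 := by
    rw [half, AddCircle.toCircle_apply_mk, Circle.coe_exp]
    convert Complex.exp_pi_mul_I using 2
    push_cast; ring
  simp [cosd, AddCircle.toCircle_add, Circle.coe_mul, h]

/-- Quarter of a turn. -/
noncomputable def quarter : UnitAddCircle := ((1 / 4 : ℝ) : UnitAddCircle)

theorem quarter_add_quarter : quarter + quarter = half := by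
  rw [quarter, half, ← AddCircle.coe_add]; norm_num

theorem continuous_xyWeight (J : V → V → ℝ) : Continuous (xyWeight J) := by
  unfold xyWeight
  refine Real.continuous_exp.comp (continuous_finsetSum _ fun a _ => continuous_finsetSum _ fun b _ =>
    continuous_const.mul (continuous_cosd.comp ?_))
  fun_prop

theorem integrable_of_continuous {X : Type} [TopologicalSpace X] [CompactSpace X] [MeasurableSpace X]
    [OpensMeasurableSpace X] {μ : Measure X} [IsFiniteMeasure μ] {f : X → ℝ} (hf : Continuous f) :
    Integrable f μ :=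
  hf.integrable_of_hasCompactSupport (HasCompactSupport.of_compactSpace f)

/-- The partition function is positive. -/
theorem xy_pos (J : V → V → ℝ) :
    0 < ∫ θ, xyWeight J θ ∂(Measure.pi fun _ : V => (volume : Measure UnitAddCircle)) :=
  integral_pos_of_integrable_nonneg_nonzero (x := fun _ => (0 : UnitAddCircle)) (continuous_xyWeight J)
    (integrable_of_continuous (continuous_xyWeight J)) (fun θ => (Real.exp_pos _).le)
    (Real.exp_pos _).ne'

/-- Kernels with nonnegative quadratic form. -/
def PK {T : Type} [TopologicalSpace T] [MeasurableSpace T] (μ : Measure T) (F : T × T → ℝ) : Prop :=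
  Continuous F ∧ ∀ u : T → ℝ, Continuous u → 0 ≤ ∫ p, F p * (u p.1 * u p.2) ∂(μ.prod μ)

section Kernels

variable {T : Type} [TopologicalSpace T] [CompactSpace T] [SecondCountableTopology T] [MeasurableSpace T]
  [BorelSpace T] {μ : Measure T} [IsFiniteMeasure μ]

theorem pk_one : PK μ (fun _ => 1) := by
  refine ⟨continuous_const, fun u _ => ?_⟩
  simp only [one_mul]
  rw [integral_prod_mul u u]
  exact mul_self_nonneg _

theorem pk_rank {F : T × T → ℝ} (hF : PK μ F) {w : T → ℝ} (hw : Continuous w) :
    PK μ (fun p => F p * (w p.1 * w p.2)) := by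
  refine ⟨hF.1.mul ((hw.comp continuous_fst).mul (hw.comp continuous_snd)), fun u hu => ?_⟩
  refine (hF.2 (fun t => w t * u t) (hw.mul hu)).trans_eq (integral_congr_ae (ae_of_all _ fun p => ?_))
  simp only
  ring

theorem pk_combination {ι : Type} (s : Finset ι) {c : ι → ℝ} (hc : ∀ i ∈ s, 0 ≤ c i)
    {F : ι → T × T → ℝ} (hF : ∀ i ∈ s, PK μ (F i)) : PK μ (fun p => ∑ i ∈ s, c i * F i p) := by
  refine ⟨continuous_finsetSum _ fun i hi => continuous_const.mul (hF i hi).1, fun u hu => ?_⟩
  have e : (fun p : T × T => (∑ i ∈ s, c i * F i p) * (u p.1 * u p.2))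
      = fun p => ∑ i ∈ s, c i * (F i p * (u p.1 * u p.2)) := by
    funext p; rw [sum_mul]; exact sum_congr rfl fun i _ => mul_assoc _ _ _
  have hI : ∀ i ∈ s, Integrable (fun p : T × T => c i * (F i p * (u p.1 * u p.2))) (μ.prod μ) :=
    fun i hi => integrable_of_continuous (continuous_const.mul ((hF i hi).1.mul
      ((hu.comp continuous_fst).mul (hu.comp continuous_snd))))
  rw [e, integral_finsetSum _ hI]
  exact sum_nonneg fun i hi => by
    rw [integral_const_mul]; exact mul_nonneg (hc i hi) ((hF i hi).2 u hu)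

/-- A kernel `∑ c w⊗w`. -/
def pairing {ι : Type} [Fintype ι] (c : ι → ℝ) (w : ι → T → ℝ) (p : T × T) : ℝ :=
  ∑ i, c i * (w i p.1 * w i p.2)

theorem continuous_pairing {ι : Type} [Fintype ι] (c : ι → ℝ) {w : ι → T → ℝ}
    (hw : ∀ i, Continuous (w i)) : Continuous (pairing c w) :=
  continuous_finsetSum _ fun i _ => continuous_const.mul
    (((hw i).comp continuous_fst).mul ((hw i).comp continuous_snd))

theorem pk_pow {ι : Type} [Fintype ι] {c : ι → ℝ} (hc : ∀ i, 0 ≤ c i) {w : ι → T → ℝ}
    (hw : ∀ i, Continuous (w i)) {F : T × T → ℝ} (hF : PK μ F) :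
    ∀ k : ℕ, PK μ (fun p => F p * pairing c w p ^ k) := by
  intro k
  induction k with
  | zero => simpa using hF
  | succ k ih =>
    have h := pk_combination univ (fun i _ => hc i)
      (F := fun i p => F p * pairing c w p ^ k * (w i p.1 * w i p.2)) fun i _ => pk_rank ih (hw i)
    convert h using 1
    funext p
    rw [pow_succ, ← mul_assoc]
    conv_lhs => arg 2; rw [pairing]
    rw [mul_sum]
    exact sum_congr rfl fun i _ => by ring

/-- Series with nonnegative coefficients in a pairing preserve positivity. -/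
theorem pk_series {ι : Type} [Fintype ι] {c : ι → ℝ} (hc : ∀ i, 0 ≤ c i) {w : ι → T → ℝ}
    (hw : ∀ i, Continuous (w i)) {F : T × T → ℝ} (hF : PK μ F) {a : ℕ → ℝ} (ha : ∀ n, 0 ≤ a n)
    {e : ℕ → ℕ} {φ : ℝ → ℝ} (hφ : Continuous φ) (hsum : ∀ z, HasSum (fun n => a n * z ^ e n) (φ z)) :
    PK μ (fun p => F p * φ (pairing c w p)) := by
  refine ⟨hF.1.mul (hφ.comp (continuous_pairing c hw)), fun u hu => ?_⟩
  set G : ℕ → T × T → ℝ := fun N p =>
    (∑ n ∈ range N, a n * (F p * pairing c w p ^ e n)) * (u p.1 * u p.2) with hG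
  have hcS := continuous_pairing c hw
  have hcu : Continuous fun p : T × T => u p.1 * u p.2 :=
    (hu.comp continuous_fst).mul (hu.comp continuous_snd)
  have hlim := tendsto_integral_of_dominated_convergence (μ := μ.prod μ) (F := G)
    (f := fun p => F p * φ (pairing c w p) * (u p.1 * u p.2))
    (fun p => φ |pairing c w p| * |F p| * |u p.1 * u p.2|) ?_ ?_ ?_ ?_
  · refine ge_of_tendsto' hlim fun N => ?_
    exact (pk_combination (range N) (fun n _ => ha n) fun n _ => pk_pow hc hw hF (e n)).2 u hu
  · exact fun N => (((continuous_finsetSum _ fun n _ =>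
      continuous_const.mul (hF.1.mul (hcS.pow _))).mul hcu)).aestronglyMeasurable
  · exact integrable_of_continuous (((hφ.comp hcS.abs).mul hF.1.abs).mul hcu.abs)
  · intro N
    refine ae_of_all _ fun p => ?_
    rw [Real.norm_eq_abs, hG, abs_mul]
    refine mul_le_mul_of_nonneg_right ((abs_sum_le_sum_abs _ _).trans ?_) (abs_nonneg _)
    calc ∑ n ∈ range N, |a n * (F p * pairing c w p ^ e n)|
        = (∑ n ∈ range N, a n * |pairing c w p| ^ e n) * |F p| := by
          rw [sum_mul]
          refine sum_congr rfl fun n _ => ?_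
          rw [abs_mul, abs_mul, abs_pow, abs_of_nonneg (ha n)]; ring
      _ ≤ _ := mul_le_mul_of_nonneg_right (sum_le_hasSum _ (fun n _ =>
          mul_nonneg (ha n) (pow_nonneg (abs_nonneg _) _)) (hsum _)) (abs_nonneg _)
  · refine ae_of_all _ fun p => ?_
    have h := ((hsum (pairing c w p)).tendsto_sum_nat.const_mul (F p)).mul_const (u p.1 * u p.2)
    refine h.congr fun N => ?_
    rw [hG]
    simp only
    rw [mul_sum]
    congr 1
    exact sum_congr rfl fun n _ => by ring

end Kernels

/-- The sum and difference map. -/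
noncomputable def sumDiff (V : Type) :
    (V → UnitAddCircle) × (V → UnitAddCircle) →+ (V → UnitAddCircle) × (V → UnitAddCircle) where
  toFun p := (p.1 + p.2, p.1 - p.2)
  map_zero' := by simp
  map_add' p q := by
    ext v <;> simp <;> abel

theorem sumDiff_surjective : Function.Surjective (sumDiff V) := by
  rintro ⟨a, b⟩
  choose s hs using fun v : V => QuotientAddGroup.mk_surjective (a v)
  choose t ht using fun v : V => QuotientAddGroup.mk_surjective (b v)
  refine ⟨(fun v => ((((s v + t v) / 2 : ℝ)) : UnitAddCircle),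
    fun v => ((((s v - t v) / 2 : ℝ)) : UnitAddCircle)), Prod.ext (funext fun v => ?_) (funext fun v => ?_)⟩
  · show ((((s v + t v) / 2 : ℝ)) : UnitAddCircle) + (((s v - t v) / 2 : ℝ) : UnitAddCircle) = a v
    rw [← AddCircle.coe_add, show (s v + t v) / 2 + (s v - t v) / 2 = s v by ring]; exact hs v
  · show ((((s v + t v) / 2 : ℝ)) : UnitAddCircle) - (((s v - t v) / 2 : ℝ) : UnitAddCircle) = b v
    rw [← AddCircle.coe_sub, show (s v + t v) / 2 - (s v - t v) / 2 = t v by ring]; exact ht v

/-- Ginibre's inequality. -/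
theorem ginibre (J K : V → V → ℝ) (hJ : ∀ a b, 0 ≤ J a b) (hK : ∀ a b, 0 ≤ K a b) (x y : V) :
    (∫ θ, cosd (θ x - θ y) * xyWeight J θ ∂(Measure.pi fun _ : V => (volume : Measure UnitAddCircle))) *
        (∫ θ, xyWeight (J + K) θ ∂(Measure.pi fun _ : V => (volume : Measure UnitAddCircle))) ≤
      (∫ θ, cosd (θ x - θ y) * xyWeight (J + K) θ
          ∂(Measure.pi fun _ : V => (volume : Measure UnitAddCircle))) *
        (∫ θ, xyWeight J θ ∂(Measure.pi fun _ : V => (volume : Measure UnitAddCircle))) := by
  classical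
  set μ := Measure.pi fun _ : V => (volume : Measure UnitAddCircle) with hμ
  set f : (V → UnitAddCircle) → ℝ := fun θ => cosd (θ x - θ y) with hf
  have hfc : Continuous f := continuous_cosd.comp (by fun_prop)
  have hJc := continuous_xyWeight J
  have hJKc := continuous_xyWeight (J + K)
  set G : (V → UnitAddCircle) × (V → UnitAddCircle) → ℝ := fun p =>
    (f p.1 - f p.2) * (xyWeight (J + K) p.1 * xyWeight J p.2 - xyWeight J p.1 * xyWeight (J + K) p.2) with hG
  have hGc : Continuous G := by rw [hG]; fun_prop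
  have hnonneg : 0 ≤ ∫ p, G p ∂(μ.prod μ) := by
    haveI : BorelSpace ((V → UnitAddCircle) × (V → UnitAddCircle)) := Prod.borelSpace
    haveI : μ.IsAddHaarMeasure := by rw [hμ]; infer_instance
    haveI : (μ.prod μ).IsAddHaarMeasure := Measure.prod.instIsAddHaarMeasure μ μ
    have hmp : MeasurePreserving (sumDiff V) (μ.prod μ) (μ.prod μ) :=
      AddMonoidHom.measurePreserving (show Continuous fun p : (V → UnitAddCircle) × (V → UnitAddCircle) =>
        (p.1 + p.2, p.1 - p.2) by fun_prop) sumDiff_surjective rfl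
    rw [← hmp.map_eq, integral_map hmp.measurable.aemeasurable hGc.aestronglyMeasurable]
    have hC : ∀ q : V × V, Continuous fun t : V → UnitAddCircle => cosd (t q.1 - t q.2) :=
      fun q => continuous_cosd.comp (by fun_prop)
    have hS : ∀ q : V × V, Continuous fun t : V → UnitAddCircle => sind (t q.1 - t q.2) :=
      fun q => continuous_sind.comp (by fun_prop)
    have h1 := pk_series (μ := μ) (c := fun q : V × V => 2 * J q.1 q.2 + K q.1 q.2)
      (fun q => by linarith [hJ q.1 q.2, hK q.1 q.2]) hC
      (pk_rank pk_one (hS (x, y))) (a := fun n => ((n.factorial : ℝ))⁻¹) (fun n => by positivity)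
      (e := fun n => n) Real.continuous_exp fun z => by
        have h := NormedSpace.expSeries_div_hasSum_exp (𝔸 := ℝ) z
        rw [← Real.exp_eq_exp_ℝ] at h
        simpa [div_eq_inv_mul] using h
    have h2 := pk_series (μ := μ) (c := fun q : V × V => K q.1 q.2) (fun q => hK q.1 q.2) hS h1
      (a := fun n => (((2 * n + 1).factorial : ℝ))⁻¹) (fun n => by positivity)
      (e := fun n => 2 * n + 1) Real.continuous_sinh fun z => by
        simpa [div_eq_inv_mul] using Real.hasSum_sinh z
    have h3 := h2.2 (fun _ => 2) continuous_const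
    refine h3.trans_eq (integral_congr_ae (ae_of_all _ fun p => ?_))
    obtain ⟨α, δ⟩ := p
    have hp : ∀ a b : V, cosd ((α a + δ a) - (α b + δ b)) =
        cosd (α a - α b) * cosd (δ a - δ b) - sind (α a - α b) * sind (δ a - δ b) := fun a b => by
      rw [show (α a + δ a) - (α b + δ b) = (α a - α b) + (δ a - δ b) by abel, cosd_add]
    have hm : ∀ a b : V, cosd ((α a - δ a) - (α b - δ b)) =
        cosd (α a - α b) * cosd (δ a - δ b) + sind (α a - α b) * sind (δ a - δ b) := fun a b => by
      rw [show (α a - δ a) - (α b - δ b) = (α a - α b) + -(δ a - δ b) by abel, cosd_add, cosd_neg,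
        sind_neg]
      ring
    simp only [hG, hf, sumDiff, AddMonoidHom.coe_mk, ZeroHom.coe_mk, xyWeight, Pi.add_apply,
      Pi.sub_apply, hp, hm, pairing, Fintype.sum_prod_type]
    set c : V → V → ℝ := fun a b => cosd (α a - α b) * cosd (δ a - δ b) with hc
    set s : V → V → ℝ := fun a b => sind (α a - α b) * sind (δ a - δ b) with hs
    show 1 * s x y * Real.exp (∑ a, ∑ b, (2 * J a b + K a b) * c a b) *
        Real.sinh (∑ a, ∑ b, K a b * s a b) * (2 * 2) =
      ((c x y - s x y) - (c x y + s x y)) *
        (Real.exp (∑ a, ∑ b, (J a b + K a b) * (c a b - s a b)) *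
            Real.exp (∑ a, ∑ b, J a b * (c a b + s a b)) -
          Real.exp (∑ a, ∑ b, J a b * (c a b - s a b)) *
            Real.exp (∑ a, ∑ b, (J a b + K a b) * (c a b + s a b)))
    have e1 : (∑ a, ∑ b, (J a b + K a b) * (c a b - s a b)) + (∑ a, ∑ b, J a b * (c a b + s a b)) =
        (∑ a, ∑ b, (2 * J a b + K a b) * c a b) + -∑ a, ∑ b, K a b * s a b := by
      simp only [← sum_add_distrib, ← sum_neg_distrib]
      exact sum_congr rfl fun a _ => sum_congr rfl fun b _ => by ring
    have e2 : (∑ a, ∑ b, J a b * (c a b - s a b)) + (∑ a, ∑ b, (J a b + K a b) * (c a b + s a b)) =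
        (∑ a, ∑ b, (2 * J a b + K a b) * c a b) + ∑ a, ∑ b, K a b * s a b := by
      simp only [← sum_add_distrib]
      exact sum_congr rfl fun a _ => sum_congr rfl fun b _ => by ring
    rw [← Real.exp_add, ← Real.exp_add, e1, e2, Real.exp_add, Real.exp_add, Real.sinh_eq]
    ring
  have hi : ∀ {u v : (V → UnitAddCircle) → ℝ}, Continuous u → Continuous v →
      Integrable (fun p : (V → UnitAddCircle) × (V → UnitAddCircle) => u p.1 * v p.2) (μ.prod μ) :=
    fun hu hv => integrable_of_continuous ((hu.comp continuous_fst).mul (hv.comp continuous_snd))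
  have heq : ∫ p, G p ∂(μ.prod μ) =
      2 * ((∫ θ, f θ * xyWeight (J + K) θ ∂μ) * ∫ θ, xyWeight J θ ∂μ) -
      2 * ((∫ θ, f θ * xyWeight J θ ∂μ) * ∫ θ, xyWeight (J + K) θ ∂μ) := by
    have e : G = fun p => ((f p.1 * xyWeight (J + K) p.1) * xyWeight J p.2
        + xyWeight J p.1 * (f p.2 * xyWeight (J + K) p.2))
        - ((f p.1 * xyWeight J p.1) * xyWeight (J + K) p.2
        + xyWeight (J + K) p.1 * (f p.2 * xyWeight J p.2)) := by
      funext p; simp only [hG]; ring
    have c1 : Continuous fun t => f t * xyWeight (J + K) t := hfc.mul hJKc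
    have c2 : Continuous fun t => f t * xyWeight J t := hfc.mul hJc
    rw [e, integral_sub ((hi c1 hJc).fun_add (hi hJc c1)) ((hi c2 hJKc).fun_add (hi hJKc c2)),
      integral_add (hi c1 hJc) (hi hJc c1),
      integral_add (hi c2 hJKc) (hi hJKc c2),
      integral_prod_mul (μ := μ) (ν := μ) (fun t => f t * xyWeight (J + K) t) (xyWeight J),
      integral_prod_mul (μ := μ) (ν := μ) (xyWeight J) (fun t => f t * xyWeight (J + K) t),
      integral_prod_mul (μ := μ) (ν := μ) (fun t => f t * xyWeight J t) (xyWeight (J + K)),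
      integral_prod_mul (μ := μ) (ν := μ) (xyWeight (J + K)) (fun t => f t * xyWeight J t)]
    ring
  rw [heq] at hnonneg
  linarith

theorem xyCorr_mono (J J' : V → V → ℝ) (hJ : ∀ a b, 0 ≤ J a b) (hle : ∀ a b, J a b ≤ J' a b) (x y : V) :
    xyCorr J x y ≤ xyCorr J' x y := by
  have h := ginibre J (J' - J) hJ (fun a b => sub_nonneg.2 (hle a b)) x y
  rw [add_sub_cancel] at h
  exact (div_le_div_iff₀ (xy_pos J) (xy_pos J')).2 h

theorem xyCorr_nonneg (J : V → V → ℝ) (hJ : ∀ a b, 0 ≤ J a b) (x y : V) : 0 ≤ xyCorr J x y := by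
  classical
  refine le_trans ?_ (xyCorr_mono 0 J (fun _ _ => le_refl _) hJ x y)
  refine div_nonneg ?_ (xy_pos 0).le
  simp only [xyWeight, Pi.zero_apply, zero_mul, sum_const_zero, Real.exp_zero, mul_one]
  by_cases hxy : x = y
  · subst hxy; simp [cosd_zero]
  · set μ := Measure.pi fun _ : V => (volume : Measure UnitAddCircle) with hμ
    have h := integral_add_right_eq_self (μ := μ)
      (fun θ : V → UnitAddCircle => cosd (θ x - θ y)) (Pi.single x half)
    simp only [Pi.add_apply, Pi.single_eq_same, Pi.single_eq_of_ne (Ne.symm hxy), add_zero] at h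
    have e : ∀ θ : V → UnitAddCircle, cosd (θ x + half - θ y) = -cosd (θ x - θ y) := fun θ => by
      rw [show θ x + half - θ y = (θ x - θ y) + half by abel, cosd_add_half]
    simp only [e, integral_neg] at h
    linarith

end Vale.Agent.P163
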