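import Vale.Agent.P163.Ginibre

/-!
# P163: comparing the O(n) model with the XY model

Averaging over independent rotations of every spin in a fixed coordinate plane turns the conditional
two-point function of the in-plane components into an XY two-point function with couplings
`J a b * r a * r b`, where the radii `r` are at most one.
-/

namespace Vale.Agent.P163

open MeasureTheory Finset
open scoped RealInnerProductSpace

variable {V : Type} [Fintype V] {n : ℕ}

/-- Scaling to norm one (and `0 ↦ 0`). -/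
noncomputable def unitize (v : EuclideanSpace ℝ (Fin n)) : EuclideanSpace ℝ (Fin n) := ‖v‖⁻¹ • v

/-- The uniform probability measure on the unit sphere of `ℝ^n`. -/
noncomputable def spinLaw (n : ℕ) : Measure (EuclideanSpace ℝ (Fin n)) :=
  Measure.map unitize ((volume (Metric.closedBall (0 : EuclideanSpace ℝ (Fin n)) 1))⁻¹ •
    volume.restrict (Metric.closedBall (0 : EuclideanSpace ℝ (Fin n)) 1))

theorem measurable_unitize : Measurable (unitize : EuclideanSpace ℝ (Fin n) → _) :=
  measurable_norm.inv.smul measurable_id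

instance : IsProbabilityMeasure (spinLaw n) := by
  constructor
  rw [spinLaw, Measure.map_apply measurable_unitize MeasurableSet.univ, Set.preimage_univ,
    Measure.smul_apply, Measure.restrict_apply_univ, smul_eq_mul,
    ENNReal.inv_mul_cancel (Metric.measure_closedBall_pos volume _ one_pos).ne'
      measure_closedBall_lt_top.ne]

theorem spinLaw_norm (hn : 0 < n) : ∀ᵐ v ∂spinLaw n, ‖v‖ = 1 := by
  haveI : Nontrivial (EuclideanSpace ℝ (Fin n)) := by
    refine ⟨⟨EuclideanSpace.single ⟨0, hn⟩ (1 : ℝ), 0, fun h => ?_⟩⟩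
    simpa using congrArg norm h
  rw [spinLaw, ae_map_iff measurable_unitize.aemeasurable
    (measurableSet_eq_fun measurable_norm measurable_const)]
  refine Measure.ae_smul_measure (ae_restrict_of_ae ?_) _
  filter_upwards [Measure.ae_ne volume (0 : EuclideanSpace ℝ (Fin n))] with v hv
  exact norm_smul_inv_norm hv

theorem spinLaw_norm_le : ∀ᵐ v ∂spinLaw n, ‖v‖ ≤ 1 := by
  rw [spinLaw, ae_map_iff measurable_unitize.aemeasurable
    (measurableSet_le measurable_norm measurable_const)]
  refine ae_of_all _ fun v => ?_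
  rw [unitize, norm_smul, norm_inv, norm_norm]
  rcases (norm_nonneg v).eq_or_lt with h | h
  · simp [← h]
  · rw [inv_mul_cancel₀ h.ne']

theorem spinLaw_invariant (e : EuclideanSpace ℝ (Fin n) ≃ₗᵢ[ℝ] EuclideanSpace ℝ (Fin n)) :
    Measure.map e (spinLaw n) = spinLaw n := by
  have hb : e ⁻¹' Metric.closedBall 0 1 = Metric.closedBall 0 1 := by
    ext v; simp
  have hr := (e.measurePreserving.restrict_preimage
    (measurableSet_closedBall (x := (0 : EuclideanSpace ℝ (Fin n))) (ε := 1))).map_eq
  rw [hb] at hr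
  have hc : e ∘ unitize = unitize ∘ e := by
    funext v; simp [unitize]
  rw [spinLaw, Measure.map_map e.continuous.measurable measurable_unitize, hc,
    ← Measure.map_map measurable_unitize e.continuous.measurable, Measure.map_smul, hr]

/-- The O(n) Boltzmann weight. -/
noncomputable def onWeight (J : V → V → ℝ) (σ : V → EuclideanSpace ℝ (Fin n)) : ℝ :=
  Real.exp (∑ a, ∑ b, J a b * ⟪σ a, σ b⟫)

/-- The O(n) two-point function: spins are uniform on the sphere and independent before weighting. -/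
noncomputable def onCorr (n : ℕ) (J : V → V → ℝ) (x y : V) : ℝ :=
  (∫ σ, ⟪σ x, σ y⟫ * onWeight J σ ∂(Measure.pi fun _ : V => spinLaw n)) /
    ∫ σ, onWeight J σ ∂(Measure.pi fun _ : V => spinLaw n)

theorem continuous_onWeight (J : V → V → ℝ) :
    Continuous (onWeight J : (V → EuclideanSpace ℝ (Fin n)) → ℝ) :=
  Real.continuous_exp.comp (continuous_finsetSum _ fun a _ => continuous_finsetSum _ fun b _ =>
    continuous_const.mul ((continuous_apply a).inner (continuous_apply b)))

theorem spins_ae_le :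
    ∀ᵐ σ ∂(Measure.pi fun _ : V => spinLaw n), ∀ a, ‖σ a‖ ≤ 1 :=
  ae_all_iff.2 fun a =>
    (measurePreserving_eval (fun _ : V => spinLaw n) a).quasiMeasurePreserving.ae spinLaw_norm_le

theorem abs_inner_le_one {u v : EuclideanSpace ℝ (Fin n)} (hu : ‖u‖ ≤ 1) (hv : ‖v‖ ≤ 1) :
    |⟪u, v⟫| ≤ 1 :=
  (abs_real_inner_le_norm u v).trans (mul_le_one₀ hu (norm_nonneg _) hv)

theorem onWeight_le (J : V → V → ℝ) {σ : V → EuclideanSpace ℝ (Fin n)} (h : ∀ a, ‖σ a‖ ≤ 1) :
    onWeight J σ ≤ Real.exp (∑ a, ∑ b, |J a b|) := by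
  refine Real.exp_le_exp.2 (sum_le_sum fun a _ => sum_le_sum fun b _ => (le_abs_self _).trans ?_)
  rw [abs_mul]
  exact mul_le_of_le_one_right (abs_nonneg _) (abs_inner_le_one (h a) (h b))

theorem integrable_onWeight (J : V → V → ℝ) :
    Integrable (onWeight J) (Measure.pi fun _ : V => spinLaw n) :=
  Integrable.of_bound (continuous_onWeight J).aestronglyMeasurable (Real.exp (∑ a, ∑ b, |J a b|))
    (spins_ae_le.mono fun σ h => by
      rw [Real.norm_eq_abs, onWeight, Real.abs_exp]; exact onWeight_le J h)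

/-! ### Rotations in a coordinate plane -/

/-- Rotation by `t` in the coordinate plane `(i, j)`. -/
noncomputable def rot (i j : Fin n) (t : UnitAddCircle) (v : EuclideanSpace ℝ (Fin n)) :
    EuclideanSpace ℝ (Fin n) :=
  WithLp.toLp 2 fun k => if k = i then cosd t * v i - sind t * v j
    else if k = j then sind t * v i + cosd t * v j else v k

theorem rot_apply (i j : Fin n) (t : UnitAddCircle) (v : EuclideanSpace ℝ (Fin n)) (k : Fin n) :
    rot i j t v k = if k = i then cosd t * v i - sind t * v j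
      else if k = j then sind t * v i + cosd t * v j else v k := rfl

theorem inner_coords (i j : Fin n) (hij : i ≠ j) (u v : EuclideanSpace ℝ (Fin n)) :
    ⟪u, v⟫ = (∑ k ∈ univ \ {i, j}, u k * v k) + (u i * v i + u j * v j) := by
  rw [← sum_pair (f := fun k => u k * v k) hij, sum_sdiff (subset_univ _)]
  simp [PiLp.inner_apply, mul_comm]

theorem inner_rot (i j : Fin n) (hij : i ≠ j) (s t : UnitAddCircle) (u v : EuclideanSpace ℝ (Fin n)) :
    ⟪rot i j s u, rot i j t v⟫ = (∑ k ∈ univ \ {i, j}, u k * v k) +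
      ((cosd s * u i - sind s * u j) * (cosd t * v i - sind t * v j) +
        (sind s * u i + cosd s * u j) * (sind t * v i + cosd t * v j)) := by
  rw [inner_coords i j hij]
  simp only [rot_apply, if_pos, if_neg hij.symm]
  congr 1
  refine sum_congr rfl fun k hk => ?_
  simp only [mem_sdiff, mem_insert, mem_singleton, not_or] at hk
  simp [hk.2.1, hk.2.2]

theorem cosd_sq_add_sind_sq (t : UnitAddCircle) : cosd t ^ 2 + sind t ^ 2 = 1 := by
  have h := Circle.normSq_coe (AddCircle.toCircle t)
  rw [Complex.normSq_apply] at h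
  unfold cosd sind; nlinarith [h]

/-- A plane rotation as a linear isometry equivalence. -/
noncomputable def rotEquiv (i j : Fin n) (hij : i ≠ j) (t : UnitAddCircle) :
    EuclideanSpace ℝ (Fin n) ≃ₗᵢ[ℝ] EuclideanSpace ℝ (Fin n) :=
  LinearIsometry.toLinearIsometryEquiv
    { toFun := rot i j t
      map_add' := fun u v => by
        ext k; simp only [rot_apply, PiLp.add_apply]; split_ifs <;> ring
      map_smul' := fun c u => by
        ext k; simp only [rot_apply, PiLp.smul_apply, smul_eq_mul, RingHom.id_apply]; split_ifs <;> ring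
      norm_map' := fun u => by
        change ‖rot i j t u‖ = ‖u‖
        have h : ⟪rot i j t u, rot i j t u⟫ = ⟪u, u⟫ := by
          rw [inner_rot i j hij, inner_coords i j hij u u]
          linear_combination (u i * u i + u j * u j) * cosd_sq_add_sind_sq t
        rw [real_inner_self_eq_norm_sq, real_inner_self_eq_norm_sq] at h
        exact (sq_eq_sq₀ (norm_nonneg _) (norm_nonneg _)).1 h } rfl

theorem continuous_rot (i j : Fin n) :
    Continuous fun p : UnitAddCircle × EuclideanSpace ℝ (Fin n) => rot i j p.1 p.2 := by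
  refine (PiLp.continuous_toLp 2 _).comp (continuous_pi fun k => ?_)
  have hc : Continuous fun p : UnitAddCircle × EuclideanSpace ℝ (Fin n) => cosd p.1 :=
    continuous_cosd.comp continuous_fst
  have hs : Continuous fun p : UnitAddCircle × EuclideanSpace ℝ (Fin n) => sind p.1 :=
    continuous_sind.comp continuous_fst
  have hv : ∀ k, Continuous fun p : UnitAddCircle × EuclideanSpace ℝ (Fin n) => p.2 k :=
    fun k => (PiLp.continuous_apply 2 _ k).comp continuous_snd
  split_ifs
  · exact (hc.mul (hv i)).sub (hs.mul (hv j))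
  · exact (hs.mul (hv i)).add (hc.mul (hv j))
  · exact hv k

attribute [local irreducible] rot

/-- Averaging a function of the spins over the rotations. -/
theorem integral_rot (i j : Fin n) (hij : i ≠ j) {F : (V → EuclideanSpace ℝ (Fin n)) → ℝ}
    (hF : Continuous F) {C : ℝ} (hC : ∀ σ, (∀ a, ‖σ a‖ ≤ 1) → |F σ| ≤ C) :
    Integrable (fun σ => ∫ θ : V → UnitAddCircle, F (fun a => rot i j (θ a) (σ a))
        ∂(Measure.pi fun _ : V => (volume : Measure UnitAddCircle))) (Measure.pi fun _ : V => spinLaw n) ∧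
      ∫ σ, F σ ∂(Measure.pi fun _ : V => spinLaw n) =
        ∫ σ, ∫ θ : V → UnitAddCircle, F (fun a => rot i j (θ a) (σ a))
          ∂(Measure.pi fun _ : V => (volume : Measure UnitAddCircle)) ∂(Measure.pi fun _ : V => spinLaw n) := by
  have hcont : Continuous fun p : (V → EuclideanSpace ℝ (Fin n)) × (V → UnitAddCircle) =>
      F (fun a => rot i j (p.2 a) (p.1 a)) :=
    hF.comp (continuous_pi fun a => by
      have hpair : Continuous fun p : (V → EuclideanSpace ℝ (Fin n)) × (V → UnitAddCircle) =>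
          (p.2 a, p.1 a) :=
        ((continuous_apply a).comp continuous_snd).prodMk ((continuous_apply a).comp continuous_fst)
      exact Continuous.comp (g := fun q : UnitAddCircle × EuclideanSpace ℝ (Fin n) => rot i j q.1 q.2)
        (f := fun p : (V → EuclideanSpace ℝ (Fin n)) × (V → UnitAddCircle) => (p.2 a, p.1 a))
        (continuous_rot i j) hpair)
  have hnorm : ∀ t v, ‖rot i j t v‖ = ‖v‖ := fun t v => (rotEquiv i j hij t).norm_map v
  have hint : Integrable (fun p : (V → EuclideanSpace ℝ (Fin n)) × (V → UnitAddCircle) =>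
      F (fun a => rot i j (p.2 a) (p.1 a)))
      ((Measure.pi fun _ : V => spinLaw n).prod
        (Measure.pi fun _ : V => (volume : Measure UnitAddCircle))) := by
    refine Integrable.of_bound hcont.aestronglyMeasurable C ?_
    filter_upwards [(Measure.quasiMeasurePreserving_fst).ae spins_ae_le] with p hp
    exact hC _ fun a => (hnorm _ _).trans_le (hp a)
  refine ⟨hint.integral_prod_left, ?_⟩
  have hswap := integral_integral_swap
    (f := fun (σ : V → EuclideanSpace ℝ (Fin n)) (θ : V → UnitAddCircle) =>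
      F (fun a => rot i j (θ a) (σ a))) hint
  rw [hswap]
  have hθ : ∀ θ : V → UnitAddCircle, ∫ σ, F (fun a => rot i j (θ a) (σ a))
      ∂(Measure.pi fun _ : V => spinLaw n) = ∫ σ, F σ ∂(Measure.pi fun _ : V => spinLaw n) := by
    intro θ
    have hmp : MeasurePreserving (fun (σ : V → EuclideanSpace ℝ (Fin n)) a => rot i j (θ a) (σ a))
        (Measure.pi fun _ : V => spinLaw n) (Measure.pi fun _ : V => spinLaw n) :=
      measurePreserving_pi _ _ fun a =>
        ⟨(rotEquiv i j hij (θ a)).continuous.measurable, spinLaw_invariant (rotEquiv i j hij (θ a))⟩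
    conv_rhs => rw [← hmp.map_eq]
    rw [integral_map hmp.measurable.aemeasurable hF.aestronglyMeasurable]
  haveI : IsProbabilityMeasure (volume : Measure UnitAddCircle) :=
    ⟨by rw [UnitAddCircle.measure_univ]⟩
  simp only [hθ, integral_const, probReal_univ, one_smul]

theorem sind_add (s t : UnitAddCircle) : sind (s + t) = sind s * cosd t + cosd s * sind t := by
  simp [cosd, sind, AddCircle.toCircle_add, Circle.coe_mul, Complex.mul_im]; ring

theorem exists_angle (a b : ℝ) : ∃ r : ℝ, ∃ φ : UnitAddCircle,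
    0 ≤ r ∧ r ^ 2 = a ^ 2 + b ^ 2 ∧ a = r * cosd φ ∧ b = r * sind φ := by
  set z : ℂ := ⟨a, b⟩ with hz
  refine ⟨‖z‖, ((z.arg / (2 * Real.pi) : ℝ) : UnitAddCircle), norm_nonneg _, ?_, ?_⟩
  · rw [Complex.sq_norm, Complex.normSq_apply, hz]; ring
  · have h : (AddCircle.toCircle ((z.arg / (2 * Real.pi) : ℝ) : UnitAddCircle) : ℂ) =
        Complex.exp (z.arg * Complex.I) := by
      rw [AddCircle.toCircle_apply_mk, Circle.coe_exp]
      congr 2
      norm_cast
      field_simp
    have h' := Complex.norm_mul_exp_arg_mul_I z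
    rw [← h] at h'
    constructor
    · have := congrArg Complex.re h'; simpa [cosd, hz] using this.symm
    · have := congrArg Complex.im h'; simpa [sind, hz] using this.symm

/-- The conditional bound given everything but the in-plane angles. -/
theorem conditional_bound (J : V → V → ℝ) (hJ : ∀ a b, 0 ≤ J a b) (x y : V) (i j : Fin n) (hij : i ≠ j)
    (σ : V → EuclideanSpace ℝ (Fin n)) (hσ : ∀ a, ‖σ a‖ ≤ 1) :
    let μ := Measure.pi fun _ : V => (volume : Measure UnitAddCircle)
    let R := fun (θ : V → UnitAddCircle) a => rot i j (θ a) (σ a)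
    0 ≤ ∫ θ, (R θ x i * R θ y i + R θ x j * R θ y j) * onWeight J (R θ) ∂μ ∧
      ∫ θ, (R θ x i * R θ y i + R θ x j * R θ y j) * onWeight J (R θ) ∂μ ≤
        xyCorr J x y * ∫ θ, onWeight J (R θ) ∂μ := by
  classical
  intro μ R
  choose r φ hr0 hr2 hri hrj using fun a => exists_angle (σ a i) (σ a j)
  have hr1 : ∀ a, r a ≤ 1 := fun a => by
    have h : σ a i ^ 2 + σ a j ^ 2 ≤ ‖σ a‖ ^ 2 := by
      rw [EuclideanSpace.real_norm_sq_eq, ← sum_pair (f := fun k => σ a k ^ 2) hij]
      exact sum_le_sum_of_subset_of_nonneg (subset_univ _) fun k _ _ => sq_nonneg _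
    have h' : r a ^ 2 ≤ 1 ^ 2 := by
      rw [hr2 a]; nlinarith [norm_nonneg (σ a), hσ a]
    exact abs_le_of_sq_le_sq' h' zero_le_one |>.2
  set J' : V → V → ℝ := fun a b => J a b * (r a * r b) with hJ'
  set c := Real.exp (∑ a, ∑ b, J a b * ∑ k ∈ univ \ {i, j}, σ a k * σ b k) with hc
  have hRi : ∀ θ a, R θ a i = r a * cosd ((θ + φ) a) := fun θ a => by
    simp only [R, rot_apply, if_pos, Pi.add_apply, cosd_add]
    rw [hri a, hrj a]; ring
  have hRj : ∀ θ a, R θ a j = r a * sind ((θ + φ) a) := fun θ a => by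
    simp only [R, rot_apply, if_pos, if_neg hij.symm, Pi.add_apply, sind_add]
    rw [hri a, hrj a]; ring
  have hcos : ∀ s t : UnitAddCircle, cosd s * cosd t + sind s * sind t = cosd (s - t) := fun s t => by
    rw [sub_eq_add_neg, cosd_add, cosd_neg, sind_neg]; ring
  have hdot : ∀ θ a b, R θ a i * R θ b i + R θ a j * R θ b j =
      r a * r b * cosd ((θ + φ) a - (θ + φ) b) := fun θ a b => by
    rw [hRi, hRi, hRj, hRj, ← hcos]; ring
  have hw : ∀ θ, onWeight J (R θ) = c * xyWeight J' (θ + φ) := fun θ => by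
    rw [hc, onWeight, xyWeight, ← Real.exp_add]
    simp only [← sum_add_distrib]
    congr 1
    refine sum_congr rfl fun a _ => sum_congr rfl fun b _ => ?_
    rw [inner_coords i j hij, hdot θ a b, hJ']
    have hk : ∑ k ∈ univ \ {i, j}, R θ a k * R θ b k = ∑ k ∈ univ \ {i, j}, σ a k * σ b k := by
      refine sum_congr rfl fun k hk => ?_
      simp only [mem_sdiff, mem_insert, mem_singleton, not_or] at hk
      simp [R, rot_apply, hk.2.1, hk.2.2]
    rw [hk]; ring
  have hZ : ∫ θ, onWeight J (R θ) ∂μ = c * ∫ θ, xyWeight J' θ ∂μ := by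
    simp only [hw, integral_const_mul]
    rw [integral_add_right_eq_self (fun θ => xyWeight J' θ) φ]
  have hN : ∫ θ, (R θ x i * R θ y i + R θ x j * R θ y j) * onWeight J (R θ) ∂μ =
      r x * r y * c * (xyCorr J' x y * ∫ θ, xyWeight J' θ ∂μ) := by
    rw [xyCorr, div_mul_cancel₀ _ (xy_pos J').ne']
    simp only [hdot, hw]
    rw [← integral_const_mul]
    rw [← integral_add_right_eq_self (fun θ => r x * r y * c *
      (cosd (θ x - θ y) * xyWeight J' θ)) φ]
    refine integral_congr_ae (ae_of_all _ fun θ => ?_)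
    simp only
    ring
  have hJ'0 : ∀ a b, 0 ≤ J' a b := fun a b => mul_nonneg (hJ a b) (mul_nonneg (hr0 a) (hr0 b))
  have hJ'le : ∀ a b, J' a b ≤ J a b := fun a b =>
    mul_le_of_le_one_right (hJ a b) (mul_le_one₀ (hr1 a) (hr0 b) (hr1 b))
  have hZ0 := (xy_pos J').le
  have hcorr0 := xyCorr_nonneg J' hJ'0 x y
  have hc0 : 0 ≤ c := (Real.exp_pos _).le
  have hrr : 0 ≤ r x * r y := mul_nonneg (hr0 x) (hr0 y)
  rw [hN, hZ]
  refine ⟨by positivity, ?_⟩
  calc r x * r y * c * (xyCorr J' x y * ∫ θ, xyWeight J' θ ∂μ)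
      ≤ 1 * c * (xyCorr J x y * ∫ θ, xyWeight J' θ ∂μ) :=
        mul_le_mul (mul_le_mul_of_nonneg_right (mul_le_one₀ (hr1 x) (hr0 y) (hr1 y)) hc0)
          (mul_le_mul_of_nonneg_right (xyCorr_mono J' J hJ'0 hJ'le x y) hZ0)
          (mul_nonneg hcorr0 hZ0) (by rw [one_mul]; exact hc0)
    _ = xyCorr J x y * (c * ∫ θ, xyWeight J' θ ∂μ) := by ring

/-- The integral bound for one coordinate plane. -/
theorem plane_bound (J : V → V → ℝ) (hJ : ∀ a b, 0 ≤ J a b) (x y : V) (i j : Fin n) (hij : i ≠ j) :
    let π := Measure.pi fun _ : V => spinLaw n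
    0 ≤ ∫ σ, (σ x i * σ y i + σ x j * σ y j) * onWeight J σ ∂π ∧
      ∫ σ, (σ x i * σ y i + σ x j * σ y j) * onWeight J σ ∂π ≤
        xyCorr J x y * ∫ σ, onWeight J σ ∂π := by
  intro π
  have hcoord : ∀ a k, Continuous fun σ : V → EuclideanSpace ℝ (Fin n) => σ a k :=
    fun a k => (PiLp.continuous_apply 2 _ k).comp (continuous_apply a)
  have hle : ∀ σ : V → EuclideanSpace ℝ (Fin n), (∀ a, ‖σ a‖ ≤ 1) → ∀ a k, |σ a k| ≤ 1 :=
    fun σ h a k => (PiLp.norm_apply_le (σ a) k).trans (h a)
  obtain ⟨iN, hN⟩ := integral_rot (V := V) i j hij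
    (F := fun σ => (σ x i * σ y i + σ x j * σ y j) * onWeight J σ)
    ((((hcoord x i).mul (hcoord y i)).add ((hcoord x j).mul (hcoord y j))).mul (continuous_onWeight J))
    (C := 2 * Real.exp (∑ a, ∑ b, |J a b|)) (fun σ h => by
      rw [abs_mul, abs_of_pos (show 0 < onWeight J σ from Real.exp_pos _)]
      refine mul_le_mul ((abs_add_le _ _).trans ?_) (onWeight_le J h) (Real.exp_pos _).le zero_le_two
      rw [abs_mul, abs_mul]
      exact (add_le_add (mul_le_one₀ (hle σ h x i) (abs_nonneg _) (hle σ h y i))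
        (mul_le_one₀ (hle σ h x j) (abs_nonneg _) (hle σ h y j))).trans_eq (by norm_num))
  obtain ⟨iZ, hZ⟩ := integral_rot (V := V) i j hij (F := onWeight J) (continuous_onWeight J)
    (C := Real.exp (∑ a, ∑ b, |J a b|)) (fun σ h => by
      rw [abs_of_pos (show 0 < onWeight J σ from Real.exp_pos _)]; exact onWeight_le J h)
  rw [hN, hZ, ← integral_const_mul]
  have hae : ∀ᵐ σ ∂π, ∀ a, ‖σ a‖ ≤ 1 := spins_ae_le
  exact ⟨integral_nonneg_of_ae (hae.mono fun σ h => (conditional_bound J hJ x y i j hij σ h).1),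
    integral_mono_ae iN (iZ.const_mul _)
      (hae.mono fun σ h => (conditional_bound J hJ x y i j hij σ h).2)⟩

theorem on_pos (J : V → V → ℝ) : 0 < ∫ σ, onWeight J σ ∂(Measure.pi fun _ : V => spinLaw n) :=
  integral_exp_pos (integrable_onWeight J)

theorem integrable_component (J : V → V → ℝ) (x y : V) (i : Fin n) :
    Integrable (fun σ => σ x i * σ y i * onWeight J σ) (Measure.pi fun _ : V => spinLaw n) := by
  have hc : ∀ a, Continuous fun σ : V → EuclideanSpace ℝ (Fin n) => σ a i :=
    fun a => (PiLp.continuous_apply 2 _ i).comp (continuous_apply a)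
  have hcont : Continuous fun σ : V → EuclideanSpace ℝ (Fin n) => σ x i * σ y i * onWeight J σ :=
    ((hc x).mul (hc y)).mul (continuous_onWeight J)
  refine Integrable.of_bound hcont.aestronglyMeasurable (1 * Real.exp (∑ a, ∑ b, |J a b|))
    (spins_ae_le.mono fun σ h => ?_)
  rw [Real.norm_eq_abs, abs_mul, abs_mul, abs_of_pos (show 0 < onWeight J σ from Real.exp_pos _)]
  exact mul_le_mul (mul_le_one₀ ((PiLp.norm_apply_le (σ x) i).trans (h x)) (abs_nonneg _)
    ((PiLp.norm_apply_le (σ y) i).trans (h y))) (onWeight_le J h) (Real.exp_pos _).le zero_le_one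

/-- The comparison: O(n) correlations are at most `n/2` times XY correlations. -/
theorem onCorr_le (hn : 2 ≤ n) (J : V → V → ℝ) (hJ : ∀ a b, 0 ≤ J a b) (x y : V) :
    0 ≤ onCorr n J x y ∧ onCorr n J x y ≤ (n : ℝ) / 2 * xyCorr J x y := by
  set π := Measure.pi fun _ : V => spinLaw n with hπ
  set Z := ∫ σ, onWeight J σ ∂π with hZ
  set g : Fin n → ℝ := fun i => ∫ σ, σ x i * σ y i * onWeight J σ ∂π with hg
  have hNum : ∫ σ, ⟪σ x, σ y⟫ * onWeight J σ ∂π = ∑ i, g i := by
    rw [hg, ← integral_finsetSum _ fun i _ => integrable_component J x y i]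
    refine integral_congr_ae (ae_of_all _ fun σ => ?_)
    simp [PiLp.inner_apply, mul_sum, mul_comm]
  have hpair : ∀ i j : Fin n, i ≠ j → 0 ≤ g i + g j ∧ g i + g j ≤ xyCorr J x y * Z := by
    intro i j hij
    rw [hg]
    simp only
    rw [← integral_add (integrable_component J x y i) (integrable_component J x y j)]
    have e : ∀ σ : V → EuclideanSpace ℝ (Fin n),
        σ x i * σ y i * onWeight J σ + σ x j * σ y j * onWeight J σ =
          (σ x i * σ y i + σ x j * σ y j) * onWeight J σ := fun σ => by ring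
    simp only [e]
    exact plane_bound J hJ x y i j hij
  have hcount : ∑ i, ∑ j ∈ univ.erase i, (g i + g j) = 2 * ((n : ℝ) - 1) * ∑ i, g i := by
    have e : ∀ i, ∑ j ∈ univ.erase i, (g i + g j) = ((n : ℝ) - 2) * g i + ∑ k, g k := by
      intro i
      rw [sum_erase_eq_sub (mem_univ i), sum_add_distrib, sum_const, card_univ, Fintype.card_fin,
        nsmul_eq_mul]
      ring
    rw [sum_congr rfl fun i _ => e i, sum_add_distrib, ← mul_sum, sum_const, card_univ,
      Fintype.card_fin, nsmul_eq_mul]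
    ring
  have hn1 : (1 : ℝ) ≤ (n : ℝ) - 1 := by
    have : (2 : ℝ) ≤ n := by exact_mod_cast hn
    linarith
  have hlo : 0 ≤ 2 * ((n : ℝ) - 1) * ∑ i, g i := hcount ▸
    sum_nonneg fun i _ => sum_nonneg fun j hj => (hpair i j (ne_of_mem_erase hj).symm).1
  have hhi : 2 * ((n : ℝ) - 1) * ∑ i, g i ≤ (n : ℝ) * (((n : ℝ) - 1) * (xyCorr J x y * Z)) := by
    rw [← hcount]
    refine (sum_le_sum fun i _ => sum_le_sum fun j hj =>
      (hpair i j (ne_of_mem_erase hj).symm).2).trans_eq ?_
    simp [sum_const, card_erase_of_mem, Nat.cast_sub (show 1 ≤ n by omega)]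
  rw [onCorr, hNum]
  refine ⟨div_nonneg (nonneg_of_mul_nonneg_right (by linarith : 0 ≤ (2 * ((n : ℝ) - 1)) * ∑ i, g i)
    (by linarith)) (on_pos J).le, ?_⟩
  rw [div_le_iff₀ (on_pos J)]
  refine le_of_mul_le_mul_left ?_ (show (0 : ℝ) < 2 * ((n : ℝ) - 1) by linarith)
  refine hhi.trans_eq ?_
  rw [← hπ, ← hZ]
  ring

end Vale.Agent.P163
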